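import Vale.Agent.P099.Right

/-!
# P099: continuous eigenfunctions of billiards in irrational triangles
-/

namespace Vale.Agent.Results.P099.ContinuousEigenfunctions

open Vale.Agent.P099

open Complex in
/-- In a triangle with three irrational angles, and in an irrational right triangle, every
continuous eigenfunction of the billiard flow is constant, and a non-zero one has eigenvalue zero. -/
theorem result :
    (∀ (A B C : ℂ) (lam : ℝ) (f : ℂ × ℂ → ℂ), IrrationalAngle A B C → IrrationalAngle B C A →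
      IrrationalAngle C A B → ContinuousEigenfunction A B C lam f →
      ∃ c, (∀ p ∈ convexHull ℝ {A, B, C}, ∀ v : ℂ, ‖v‖ = 1 → f (p, v) = c) ∧
        (lam = 0 ∨ c = 0)) ∧
    (∀ (a b lam : ℝ) (f : ℂ × ℂ → ℂ), 0 < a → 0 < b →
      IrrationalAngle (a : ℂ) ((b : ℂ) * I) 0 →
      ContinuousEigenfunction 0 (a : ℂ) ((b : ℂ) * I) lam f →
      ∃ c, (∀ p ∈ convexHull ℝ {0, (a : ℂ), (b : ℂ) * I}, ∀ v : ℂ, ‖v‖ = 1 → f (p, v) = c) ∧
        (lam = 0 ∨ c = 0)) :=
  ⟨fun _ _ _ _ _ hA hB hC hf => const_of_irrational hA hB hC hf,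
    fun _ _ _ _ ha hb hirr hf => const_of_right ha hb hirr hf⟩

end Vale.Agent.Results.P099.ContinuousEigenfunctions
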